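import Vale.Agent.P101.Core.Basic

/-!
# P101 Core: merging commuting square-zero pieces (first success with parity strings)
-/

noncomputable section

namespace Vale.Agent.P101

universe u

variable {B : Type u} [CStarAlgebra B]

/-- `W` is a unitary anticommuting with `y` and `y*`, and `y² = 0`. -/
structure Anti (y W : B) : Prop where
  sq : y * y = 0
  unit : W ∈ unitary B
  left : W * y + y * W = 0
  left_star : W * star y + star y * W = 0

theorem OddPair.anti {x U : B} (h : OddPair x U) : Anti x U := by
  obtain ⟨hs, hU, hl, hr⟩ := h
  have h1 : star U * x = -x := by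
    have h0 : star U * (U * x) = x := by rw [← mul_assoc, Unitary.star_mul_self_of_mem hU, one_mul]
    rw [hl, mul_neg] at h0
    conv_rhs => rw [← h0]
    rw [neg_neg]
  have h2 : x * star U = x := by
    conv_lhs => enter [1]; rw [← hr]
    rw [mul_assoc, Unitary.mul_star_self_of_mem hU, mul_one]
  have h3 : U * star x = star x := by
    have := congrArg star h2
    rwa [star_mul, star_star] at this
  have h4 : star x * U = -star x := by
    have := congrArg star h1
    rwa [star_mul, star_star, star_neg] at this
  exact ⟨hs, hU, by rw [hl, hr, neg_add_cancel], by rw [h3, h4, add_neg_cancel]⟩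

/-- The weight `x* x + x x*`. -/
def weight (x : B) : B := star x * x + x * star x

theorem weight_isSelfAdjoint (x : B) : IsSelfAdjoint (weight x) :=
  (IsSelfAdjoint.star_mul_self x).add (IsSelfAdjoint.mul_star_self x)

theorem Anti.commute_weight {y W : B} (h : Anti y W) :
    Commute (weight y) y ∧ Commute (weight y) (star y) ∧ Commute (weight y) W := by
  have hs := h.sq
  have hs' : star y * star y = 0 := by rw [← star_mul, hs, star_zero]
  have a1 : W * y = -(y * W) := eq_neg_of_add_eq_zero_left h.left
  have a2 : W * star y = -(star y * W) := eq_neg_of_add_eq_zero_left h.left_star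
  refine ⟨?_, ?_, ?_⟩
  · show (star y * y + y * star y) * y = y * (star y * y + y * star y)
    rw [add_mul, mul_add, mul_assoc (star y) y y, hs, mul_zero, zero_add, ← mul_assoc y y (star y),
      hs, zero_mul, add_zero, mul_assoc]
  · show (star y * y + y * star y) * star y = star y * (star y * y + y * star y)
    rw [add_mul, mul_add, mul_assoc y (star y) (star y), hs', mul_zero, add_zero,
      ← mul_assoc (star y) (star y) y, hs', zero_mul, zero_add, mul_assoc]
  · refine Commute.add_left ?_ ?_ <;> refine Eq.symm ?_
    · rw [← mul_assoc, a2, neg_mul, mul_assoc, a1, mul_neg, neg_neg, mul_assoc]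
    · rw [← mul_assoc, a1, neg_mul, mul_assoc, a2, mul_neg, neg_neg, mul_assoc]

variable [PartialOrder B] [StarOrderedRing B]

theorem weight_nonneg (x : B) : 0 ≤ weight x :=
  add_nonneg (star_mul_self_nonneg x) (mul_star_self_nonneg x)

omit [PartialOrder B] [StarOrderedRing B] in
/-- One merge step. -/
theorem merge_step {y W z U c : B} (hy : Anti y W) (hz : Anti z U) (hc : c * c = 1 - weight y)
    (hcs : IsSelfAdjoint c) (hcy : Commute c y) (hcW : Commute c W)
    (h1 : Commute y z) (h2 : Commute y (star z)) (h3 : Commute y U) (h4 : Commute W z)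
    (h5 : Commute W (star z)) (h6 : Commute W U) (hcz : Commute c z) (hcU : Commute c U) :
    Anti (y + c * W * z) (W * U) ∧
      1 - weight (y + c * W * z) = (1 - weight y) * (1 - weight z) := by
  obtain ⟨hy0, hWu, hy1, hy2⟩ := hy
  obtain ⟨hz0, hUu, hz1, hz2⟩ := hz
  have hcy' : Commute c (star y) := by
    have := hcy.star_star; rwa [hcs.star_eq] at this
  have hcz' : Commute c (star z) := by
    have := hcz.star_star; rwa [hcs.star_eq] at this
  have hcW' : Commute c (star W) := by
    have := hcW.star_star; rwa [hcs.star_eq] at this
  have h7 : Commute (star y) z := by have := h2.star_star; rwa [star_star] at this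
  have h8 : Commute (star y) U := by
    have hU' : U * star U = 1 := Unitary.mul_star_self_of_mem hUu
    have hU'' : star U * U = 1 := Unitary.star_mul_self_of_mem hUu
    have e1 : star U * y = y * star U := by
      calc star U * y = star U * (y * U) * star U := by
            rw [mul_assoc, mul_assoc, hU', mul_one]
        _ = y * star U := by rw [h3.eq, ← mul_assoc, hU'', one_mul]
    have := congrArg star e1
    rw [star_mul, star_mul, star_star] at this
    exact this
  have hyW : y * W = -(W * y) := eq_neg_of_add_eq_zero_right hy1
  have hyW' : star y * W = -(W * star y) := eq_neg_of_add_eq_zero_right hy2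
  have hUz : U * z = -(z * U) := eq_neg_of_add_eq_zero_left hz1
  have hUz' : U * star z = -(star z * U) := eq_neg_of_add_eq_zero_left hz2
  have hWW : star W * W = 1 := Unitary.star_mul_self_of_mem hWu
  have hWW' : W * star W = 1 := Unitary.mul_star_self_of_mem hWu
  set t := c * W * z with ht
  have hts : star t = star z * star W * c := by
    rw [ht, star_mul, star_mul, hcs.star_eq]; simp only [mul_assoc]
  -- the new string `W * U` anticommutes with `y` and `t`
  have key : ∀ a : B, W * a + a * W = 0 → Commute a U → (W * U) * a + a * (W * U) = 0 := by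
    intro a ha haU
    rw [mul_assoc, ← haU.eq, ← mul_assoc, ← mul_assoc, ← add_mul, ha, zero_mul]
  have ty : t * y + y * t = 0 := by
    rw [ht, mul_assoc (c * W) z y, ← h1.eq, ← mul_assoc, ← mul_assoc y (c * W) z,
      ← mul_assoc y c W, ← hcy.eq, mul_assoc c W y, mul_assoc c y W, ← add_mul, ← mul_add, hy1,
      mul_zero, zero_mul]
  have tys : t * star y + star y * t = 0 := by
    rw [ht, mul_assoc (c * W) z (star y), ← h7.eq, ← mul_assoc, ← mul_assoc (star y) (c * W) z,
      ← mul_assoc (star y) c W, ← hcy'.eq, mul_assoc c W (star y), mul_assoc c (star y) W,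
      ← add_mul, ← mul_add, hy2, mul_zero, zero_mul]
  have tt : t * t = 0 := by
    rw [ht, show c * W * z * (c * W * z) = c * W * (z * c) * (W * z) by simp only [mul_assoc],
      ← hcz.eq, show c * W * (c * z) * (W * z) = c * W * c * (z * W) * z by simp only [mul_assoc],
      ← h4.eq, show c * W * c * (W * z) * z = c * W * c * W * (z * z) by simp only [mul_assoc],
      hz0, mul_zero]
  have htWU : (W * U) * t + t * (W * U) = 0 := by
    have e1 : (W * U) * t = c * W * W * (U * z) := by
      rw [ht, show W * U * (c * W * z) = W * (U * c) * W * z by simp only [mul_assoc], ← hcU.eq,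
        show W * (c * U) * W * z = (W * c) * (U * W) * z by simp only [mul_assoc], ← hcW.eq,
        ← h6.eq]
      simp only [mul_assoc]
    have e2 : t * (W * U) = c * W * W * (z * U) := by
      rw [ht, show c * W * z * (W * U) = c * W * (z * W) * U by simp only [mul_assoc], ← h4.eq]
      simp only [mul_assoc]
    rw [e1, e2, ← mul_add, hz1, mul_zero]
  have htWU' : (W * U) * star t + star t * (W * U) = 0 := by
    have hU1 : W * U * star (W * U) = 1 :=
      Unitary.mul_star_self_of_mem (mul_mem hWu hUu)
    have hU2 : star (W * U) * (W * U) = 1 :=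
      Unitary.star_mul_self_of_mem (mul_mem hWu hUu)
    have e := congrArg star htWU
    rw [star_add, star_mul t, star_mul (W * U) t, star_zero] at e
    have := congrArg (fun a => W * U * a * (W * U)) e
    simp only [mul_add, add_mul, mul_zero, zero_mul] at this
    rw [show W * U * (star (W * U) * star t) * (W * U) =
        W * U * star (W * U) * (star t * (W * U)) by simp only [mul_assoc],
      show W * U * (star t * star (W * U)) * (W * U) =
        W * U * star t * (star (W * U) * (W * U)) by simp only [mul_assoc],
      hU1, hU2, one_mul, mul_one] at this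
    exact this
  have tty : star t * y + y * star t = 0 := by
    have := congrArg star tys
    rw [star_add, star_mul t (star y), star_mul (star y) t, star_star, star_zero] at this
    first | exact this | (rw [add_comm]; exact this)
  refine ⟨⟨?_, mul_mem hWu hUu, ?_, ?_⟩, ?_⟩
  · rw [add_mul, mul_add, mul_add, hy0, zero_add, tt, add_zero, add_comm]; exact ty
  · rw [mul_add, add_mul, add_add_add_comm, key y hy1 h3, htWU, add_zero]
  · rw [star_add, mul_add, add_mul, add_add_add_comm, key (star y) hy2 h8, htWU', add_zero]
  · have hW : weight (y + t) = weight y + weight t := by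
      simp only [weight, star_add, add_mul, mul_add]
      have := congrArg₂ (· + ·) tys tty
      simp only [add_zero] at this
      rw [← sub_eq_zero]
      rw [← this]; abel
    have hyc : Commute (star z) (star W) := h4.star_star.symm
    have hWz' : Commute z (star W) := by have := h5.star_star.symm; rwa [star_star] at this
    have e1 : star t * t = c * c * (star z * z) := by
      rw [hts, ht, show star z * star W * c * (c * W * z) = star z * star W * (c * c * W) * z by
        simp only [mul_assoc], (hcW.mul_left hcW).eq,
        show star z * star W * (W * (c * c)) * z = star z * (star W * W) * (c * c) * z by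
        simp only [mul_assoc], hWW, mul_one, ← (hcz'.mul_left hcz').eq]
      simp only [mul_assoc]
    have e2 : t * star t = c * c * (z * star z) := by
      rw [hts, ht, show c * W * z * (star z * star W * c) = c * W * (z * star z) * star W * c by
        simp only [mul_assoc], mul_assoc c W (z * star z), (h4.mul_right h5).eq,
        show c * (z * star z * W) * star W * c = c * (z * star z) * (W * star W) * c by
        simp only [mul_assoc], hWW', mul_one, mul_assoc c _ c, ← (hcz.mul_right hcz').eq,
        ← mul_assoc]
    rw [hW, show weight t = c * c * weight z by simp only [weight, e1, e2, mul_add], hc]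
    simp only [sub_mul, mul_sub, one_mul, mul_one]
    abel

/-- Merging: `1 - weight y` is the product of the `1 - weight (z l)`. -/
theorem merge {L : ℕ} (z U : Fin L → B) (hz : ∀ l, Anti (z l) (U l))
    (hle : ∀ l, weight (z l) ≤ 1)
    (hzz : ∀ l l', l ≠ l' → Commute (z l) (z l') ∧ Commute (z l) (star (z l')) ∧
      Commute (z l) (U l') ∧ Commute (U l) (U l')) :
    ∃ y : B, y * y = 0 ∧ 0 ≤ 1 - weight y ∧
      (∀ l, weight (z l) ≤ weight y) ∧
      (∀ a : B, (∀ l, Commute a (z l) ∧ Commute a (star (z l)) ∧ Commute a (U l)) →
        Commute a y ∧ Commute a (star y)) := by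
  suffices ∀ L (z U : Fin L → B), (∀ l, Anti (z l) (U l)) → (∀ l, weight (z l) ≤ 1) →
      (∀ l l', l ≠ l' → Commute (z l) (z l') ∧ Commute (z l) (star (z l')) ∧
        Commute (z l) (U l') ∧ Commute (U l) (U l')) →
      ∃ y W : B, Anti y W ∧ 0 ≤ 1 - weight y ∧
        (∀ l, weight (z l) ≤ weight y) ∧
        ∀ a : B, (∀ l, Commute a (z l) ∧ Commute a (star (z l)) ∧ Commute a (U l)) →
          Commute a y ∧ Commute a (star y) ∧ Commute a W by
    obtain ⟨y, W, h1, h2, h3, h4⟩ := this L z U hz hle hzz
    exact ⟨y, h1.sq, h2, h3, fun a ha => ⟨(h4 a ha).1, (h4 a ha).2.1⟩⟩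
  intro L
  induction L with
  | zero =>
    intro z U _ _ _
    refine ⟨0, 1, ⟨by simp, one_mem _, by simp, by simp⟩, ?_, fun l => l.elim0, fun a _ => ?_⟩
    · simp [weight]
    · simp
  | succ L ih =>
    intro z U hz hle hzz
    obtain ⟨y, W, hy, h0, hprod, hcomm⟩ := ih (fun l => z l.castSucc) (fun l => U l.castSucc)
      (fun l => hz _) (fun l => hle _)
      (fun l l' h => hzz _ _ fun e => h (Fin.castSucc_injective _ e))
    set z₀ := z (Fin.last L) with hz₀
    set U₀ := U (Fin.last L) with hU₀
    have hne : ∀ l : Fin L, l.castSucc ≠ Fin.last L := fun l => (Fin.castSucc_lt_last l).ne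
    have cz : Commute z₀ y ∧ Commute z₀ (star y) ∧ Commute z₀ W := hcomm z₀ fun l =>
      ⟨(hzz _ _ (hne l).symm).1, (hzz _ _ (hne l).symm).2.1, (hzz _ _ (hne l).symm).2.2.1⟩
    have cz' : Commute (star z₀) y ∧ Commute (star z₀) (star y) ∧ Commute (star z₀) W :=
      hcomm (star z₀) fun l =>
        ⟨(hzz _ _ (hne l)).2.1.symm, (hzz _ _ (hne l).symm).1.star_star, by
          have hU := (hz l.castSucc).unit
          have h := (hzz _ _ (hne l).symm).2.2.1
          have e : Commute z₀ (star (U l.castSucc)) := by
            refine Eq.symm ?_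
            calc star (U l.castSucc) * z₀
                = star (U l.castSucc) * (z₀ * U l.castSucc) * star (U l.castSucc) := by
                  rw [mul_assoc, mul_assoc, Unitary.mul_star_self_of_mem hU, mul_one]
              _ = z₀ * star (U l.castSucc) := by
                  rw [h.eq, ← mul_assoc, Unitary.star_mul_self_of_mem hU, one_mul]
          have := e.star_star; rwa [star_star] at this⟩
    have cU : Commute U₀ y ∧ Commute U₀ (star y) ∧ Commute U₀ W := hcomm U₀ fun l => by
      have h := (hzz _ _ (hne l)).2.2.1
      refine ⟨h.symm, ?_, (hzz _ _ (hne l).symm).2.2.2⟩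
      have hU := (hz (Fin.last L)).unit
      have e : Commute (z l.castSucc) (star U₀) := by
        refine Eq.symm ?_
        calc star U₀ * z l.castSucc = star U₀ * (z l.castSucc * U₀) * star U₀ := by
              rw [mul_assoc, mul_assoc, Unitary.mul_star_self_of_mem hU, mul_one]
          _ = z l.castSucc * star U₀ := by
              rw [h.eq, ← mul_assoc, Unitary.star_mul_self_of_mem hU, one_mul]
      have := e.star_star; rw [star_star] at this; exact this.symm
    set c := CFC.sqrt (1 - weight y) with hcdef
    have hcc : c * c = 1 - weight y := CFC.sqrt_mul_sqrt_self _ h0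
    have hcom : ∀ a, Commute (weight y) a → Commute c a := fun a ha => by
      rw [hcdef, CFC.sqrt_eq_real_sqrt _ h0, cfcₙ_eq_cfc]
      exact ((Commute.one_left a).sub_left ha).cfc_real _
    have hwc : ∀ a, Commute a y → Commute a (star y) → Commute (weight y) a := fun a h h' =>
      ((h'.mul_right h).add_right (h.mul_right h')).symm
    obtain ⟨hstep, hweight⟩ := merge_step (c := c) hy (hz (Fin.last L)) hcc
      (CFC.sqrt_nonneg _).isSelfAdjoint
      (hcom _ hy.commute_weight.1) (hcom _ hy.commute_weight.2.2)
      cz.1.symm cz'.1.symm cU.1.symm cz.2.2.symm cz'.2.2.symm cU.2.2.symm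
      (hcom _ (hwc _ cz.1 cz.2.1)) (hcom _ (hwc _ cU.1 cU.2.1))
    have hcw : Commute (weight y) (weight z₀) :=
      hwc _ ((cz'.1.mul_left cz.1).add_left (cz.1.mul_left cz'.1))
        ((cz'.2.1.mul_left cz.2.1).add_left (cz.2.1.mul_left cz'.2.1))
    have he0 : 0 ≤ 1 - weight z₀ := sub_nonneg.2 (hle _)
    have hmul : 0 ≤ (1 - weight y) * (1 - weight z₀) :=
      Commute.mul_nonneg h0 he0
        ((Commute.one_right _).sub_right ((Commute.one_left _).sub_left hcw))
    have hu1 : weight y ≤ weight (y + c * W * z₀) := by
      rw [← sub_le_sub_iff_left (1 : B), hweight, mul_sub, mul_one, sub_le_self_iff]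
      exact Commute.mul_nonneg h0 (weight_nonneg _) ((Commute.one_left _).sub_left hcw)
    have hu2 : weight z₀ ≤ weight (y + c * W * z₀) := by
      rw [← sub_le_sub_iff_left (1 : B), hweight, sub_mul, one_mul, sub_le_self_iff]
      exact Commute.mul_nonneg (weight_nonneg _) he0 ((Commute.one_right _).sub_right hcw)
    refine ⟨y + c * W * z₀, W * U₀, hstep, hweight ▸ hmul, fun l => ?_, fun a ha => ?_⟩
    · induction l using Fin.lastCases with
      | last => exact hu2
      | cast l => exact (hprod l).trans hu1
    · obtain ⟨a1, a2, a3⟩ := hcomm a fun l => ha _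
      have hac : Commute a c := (hcom _ (hwc _ a1 a2)).symm
      obtain ⟨b1, b2, b3⟩ := ha (Fin.last L)
      refine ⟨a1.add_right ((hac.mul_right a3).mul_right b1), ?_, a3.mul_right b3⟩
      rw [star_add, star_mul, star_mul, show star c = c from (CFC.sqrt_nonneg _).isSelfAdjoint.star_eq]
      refine a2.add_right (b2.mul_right ((?_ : Commute a (star W)).mul_right hac))
      refine Eq.symm ?_
      calc star W * a = star W * (a * W) * star W := by
            rw [mul_assoc, mul_assoc, Unitary.mul_star_self_of_mem hy.unit, mul_one]
        _ = a * star W := by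
            rw [a3.eq, ← mul_assoc, Unitary.star_mul_self_of_mem hy.unit, one_mul]

end Vale.Agent.P101
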