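import Vale.Agent.P101.Core.Glue
import Vale.Agent.P101.Core.Merge

/-!
# P101 Core: cutting the merged element
-/

noncomputable section

namespace Vale.Agent.P101

universe u

variable {B : Type u} [CStarAlgebra B] [PartialOrder B] [StarOrderedRing B]

/-- `1 ≤ C • ∑ cᵢ* p cᵢ` gives fullness with the same number of terms. -/
theorem fullBy_of_one_le {ι : Type*} [Fintype ι] {p : B} (hp : 0 ≤ p) (c : ι → B) {C : ℝ}
    (h : 1 ≤ C • ∑ i, star (c i) * p * c i) : FullBy (Fintype.card ι) p := by
  set S := ∑ i, star (c i) * p * c i with hS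
  have hS0 : 0 ≤ S := Finset.sum_nonneg fun i _ => star_left_conjugate_nonneg hp _
  have hu : IsUnit (C • S) := CStarAlgebra.isUnit_of_le 1 h isStrictlyPositive_one
  have hu' : IsUnit S := by
    rcases eq_or_ne C 0 with hC | hC
    · rw [hC, zero_smul] at hu
      have : Subsingleton B := isUnit_zero_iff.1 hu |> fun h => subsingleton_of_zero_eq_one h
      exact isUnit_of_subsingleton _
    · have h2 := hu.mul (show IsUnit (algebraMap ℝ B C⁻¹) from
        (isUnit_iff_ne_zero.2 (inv_ne_zero hC)).map _)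
      rwa [Algebra.algebraMap_eq_smul_one, mul_smul_comm, mul_one, smul_smul, inv_mul_cancel₀ hC,
        one_smul] at h2
  obtain ⟨s, hs, hsS, -⟩ := exists_invSqrt S hS0 hu'
  refine ⟨fun i => c ((Fintype.equivFin ι).symm i) * s, ?_⟩
  calc ∑ i, star (c ((Fintype.equivFin ι).symm i) * s) * p * (c ((Fintype.equivFin ι).symm i) * s)
      = ∑ i, s * (star (c ((Fintype.equivFin ι).symm i)) * p *
          c ((Fintype.equivFin ι).symm i)) * s :=
        Finset.sum_congr rfl fun i _ => by rw [star_mul, hs]; simp only [mul_assoc]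
    _ = s * S * s := by
        rw [← Finset.sum_mul, ← Finset.mul_sum,
          Equiv.sum_comp (Fintype.equivFin ι).symm fun i => star (c i) * p * c i]
    _ = 1 := hsS

/-- The ramp `(t - 3/4)₊`. -/
def gfun (t : ℝ) : ℝ := max (t - 3 / 4) 0

/-- The function with `t ↦ 0` for `t ≤ 1/2` and `1` for `t ≥ 3/4`. -/
def sfun (t : ℝ) : ℝ := max 0 (min 1 (4 * t - 2))

theorem continuous_gfun : Continuous gfun := by unfold gfun; fun_prop

theorem continuous_sfun : Continuous sfun := by unfold sfun; fun_prop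

omit [PartialOrder B] [StarOrderedRing B] in
theorem cfc_mul_self {a : B} (ha : IsSelfAdjoint a) {f : ℝ → ℝ} (hf : Continuous f) :
    cfc f a * a = cfc (fun t => f t * t) a := by
  conv_lhs => enter [2]; rw [← cfc_id' ℝ a ha]
  exact (cfc_mul f (fun t => t) a hf.continuousOn continuous_id.continuousOn).symm

omit [PartialOrder B] [StarOrderedRing B] in
theorem cfc_mul' {a : B} {f g h : ℝ → ℝ} (hf : Continuous f) (hg : Continuous g)
    (e : ∀ t ∈ spectrum ℝ a, f t * g t = h t) : cfc f a * cfc g a = cfc h a := by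
  rw [← cfc_mul f g a hf.continuousOn hg.continuousOn]
  exact cfc_congr e

/-- Fullness of `p = (y₀ y₀* - 3/4)₊` from that of `(e - 3/4)₊` for `e ≤ weight y₀`. -/
theorem cutOff_full {y₀ e : B} (hy : y₀ * y₀ = 0) (hle : weight y₀ ≤ 1) (he0 : 0 ≤ e) (he1 : e ≤ 1)
    (heu : e ≤ weight y₀) (hce : Commute e (weight y₀)) {k : ℕ} (hk : FullBy k (cfc gfun e)) :
    FullBy (2 * k) (cfc gfun (y₀ * star y₀)) := by
  set a := star y₀ * y₀ with ha
  set b := y₀ * star y₀ with hb
  set u := weight y₀ with hu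
  have hua : u = a + b := rfl
  have ha0 : 0 ≤ a := star_mul_self_nonneg y₀
  have hsa : IsSelfAdjoint a := ha0.isSelfAdjoint
  have hsb : IsSelfAdjoint b := (mul_star_self_nonneg y₀).isSelfAdjoint
  have hsu : IsSelfAdjoint u := weight_isSelfAdjoint y₀
  have hy' : star y₀ * star y₀ = 0 := by rw [← star_mul, hy, star_zero]
  have hab : a * b = 0 := by
    rw [ha, hb, mul_assoc, ← mul_assoc y₀ y₀, hy, zero_mul, mul_zero]
  have hba : b * a = 0 := by
    rw [ha, hb, mul_assoc, ← mul_assoc (star y₀) (star y₀), hy', zero_mul, mul_zero]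
  have hua' : u * a = a * a := by rw [hua, add_mul, hba, add_zero]
  have hub' : u * b = b * b := by rw [hua, add_mul, hab, zero_add]
  have hby : b * y₀ = y₀ * a := by rw [ha, hb, mul_assoc]
  have hse : IsSelfAdjoint e := he0.isSelfAdjoint
  have he1' : ∀ t ∈ spectrum ℝ e, t ≤ 1 := (CFC.le_one_iff (R := ℝ) e hse).1 he1
  obtain ⟨c, hc⟩ := hk
  set g := cfc gfun e with hg
  set G := cfc gfun u with hG
  set r := cfc (fun t => Real.sqrt (gfun t)) e with hr
  have hg1 : g ≤ 1 := cfc_le_one gfun e fun t ht =>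
    max_le (by linarith [he1' t ht]) zero_le_one
  have hg0 : 0 ≤ g := cfc_nonneg fun t _ => le_max_right _ _
  have hrc : Continuous fun t => Real.sqrt (gfun t) := continuous_gfun.sqrt
  have hrs : IsSelfAdjoint r := cfc_predicate _ _
  have hrr : r * r = g := by
    rw [hr, ← cfc_mul _ _ e hrc.continuousOn hrc.continuousOn]
    exact cfc_congr fun t _ => Real.mul_self_sqrt (le_max_right _ _)
  have hGr : Commute G r := ((hce.cfc_real _).symm).cfc_real gfun
  have hgg : g * g ≤ G * g := by
    have e1 : g * g = r * (e - algebraMap ℝ B (3 / 4)) * r := by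
      have hlin : e - algebraMap ℝ B (3 / 4) = cfc (fun t : ℝ => t - 3 / 4) e := by
        rw [cfc_sub (fun t : ℝ => t) (fun _ => (3 / 4 : ℝ)) e (by fun_prop) (by fun_prop),
          cfc_id' ℝ e hse, cfc_const _ e hse]
      rw [hlin, hr, hg, cfc_mul' (h := fun t => Real.sqrt (gfun t) * (t - 3 / 4)) hrc
        (by fun_prop) (fun _ _ => rfl), cfc_mul' (h := fun t => gfun t * gfun t) continuous_gfun
        continuous_gfun (fun _ _ => rfl)]
      refine (cfc_mul' (hrc.mul (by fun_prop)) hrc fun t _ => ?_).symm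
      show Real.sqrt (gfun t) * (t - 3 / 4) * Real.sqrt (gfun t) = gfun t * gfun t
      rcases le_total t (3 / 4) with h | h
      · rw [show gfun t = 0 from max_eq_right (by linarith)]; simp
      · have hg : gfun t = t - 3 / 4 := max_eq_left (by linarith)
        rw [hg]
        nlinarith [Real.mul_self_sqrt (show 0 ≤ t - 3 / 4 by linarith)]
    have e2 : e - algebraMap ℝ B (3 / 4) ≤ G := by
      refine (sub_le_sub_right heu _).trans ?_
      conv_lhs => enter [1]; rw [← cfc_id' ℝ u hsu]
      rw [← cfc_const (3 / 4 : ℝ) u hsu,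
        ← cfc_sub (fun t : ℝ => t) (fun _ => (3 / 4 : ℝ)) u (by fun_prop) (by fun_prop), hG]
      exact cfc_mono (fun t _ => le_max_left _ _) (by fun_prop) continuous_gfun.continuousOn
    rw [e1]
    refine (hrs.conjugate_le_conjugate e2).trans_eq ?_
    rw [← hGr.eq, mul_assoc, hrr]
  have hGg : Commute G g := by rw [← hrr]; exact hGr.mul_right hGr
  have hG0 : 0 ≤ G := cfc_nonneg fun t _ => le_max_right _ _
  have hgG : g * g ≤ G := by
    refine hgg.trans ?_
    have h := Commute.mul_nonneg hG0 (sub_nonneg.2 hg1) ((Commute.one_right G).sub_right hGg)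
    rwa [mul_sub, mul_one, sub_nonneg] at h
  have hGu : (3 / 4 : ℝ) • G ≤ G * u := by
    rw [hG, cfc_mul_self hsu continuous_gfun, ← cfc_const_mul (3 / 4 : ℝ) gfun u
      continuous_gfun.continuousOn]
    refine cfc_mono (fun t _ => ?_) (continuous_const.mul continuous_gfun).continuousOn
      (continuous_gfun.mul continuous_id).continuousOn
    show (3 / 4 : ℝ) * gfun t ≤ gfun t * t
    rcases le_total t (3 / 4) with h | h
    · rw [show gfun t = 0 from max_eq_right (by linarith)]; simp
    · nlinarith [le_max_right (t - 3 / 4) 0, show gfun t = t - 3 / 4 from max_eq_left (by linarith)]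
  set p := cfc gfun b with hp
  have hp0 : 0 ≤ p := cfc_nonneg fun t _ => le_max_right _ _
  have hGa : G * a = star y₀ * p * y₀ := by
    rw [hG, intertwine hsu hsa hua' continuous_gfun, ha, mul_assoc (star y₀) y₀,
      mul_assoc (star y₀) p y₀, hp, intertwine hsb hsa hby continuous_gfun, ← ha]
  have hGb : G * b ≤ p := by
    rw [hG, intertwine hsu hsb hub' continuous_gfun, ← hp]
    have hb1 : b ≤ 1 := le_trans (le_add_of_nonneg_left ha0) hle
    have hcp : Commute b p := (Commute.refl b).cfc_real gfun |>.symm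
    have h := Commute.mul_nonneg (sub_nonneg.2 hb1) hp0 ((Commute.one_left p).sub_left hcp)
    rwa [sub_mul, one_mul, sub_nonneg] at h
  have hgp : g * g ≤ (4 / 3 : ℝ) • (star y₀ * p * y₀ + p) := by
    refine hgG.trans ?_
    calc G = (4 / 3 : ℝ) • ((3 / 4 : ℝ) • G) := by rw [smul_smul]; norm_num
      _ ≤ (4 / 3 : ℝ) • (G * u) := smul_le_smul_of_nonneg_left hGu (by norm_num)
      _ ≤ _ := smul_le_smul_of_nonneg_left (by rw [hua, mul_add, hGa]; gcongr) (by norm_num)
  -- choose the weight ε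
  set M := ‖∑ i, star (c i) * c i‖ with hM
  set ε := (2 * (M + 1))⁻¹ with hε
  have hε0 : 0 < ε := by positivity
  have hgε : g ≤ ε • (1 : B) + (4 * ε)⁻¹ • (g * g) := by
    have hgs : IsSelfAdjoint g := hg0.isSelfAdjoint
    have e1 : cfc (fun t : ℝ => ε * 1 + (4 * ε)⁻¹ * (t * t)) g =
        ε • (1 : B) + (4 * ε)⁻¹ • (g * g) := by
      rw [cfc_add g (fun _ : ℝ => ε * 1) (fun t : ℝ => (4 * ε)⁻¹ * (t * t)) (by fun_prop)
        (by fun_prop), cfc_const _ g hgs, cfc_const_mul _ (fun t : ℝ => t * t) g (by fun_prop),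
        cfc_mul (fun t : ℝ => t) (fun t : ℝ => t) g (by fun_prop) (by fun_prop), cfc_id' ℝ g hgs,
        Algebra.algebraMap_eq_smul_one, mul_one]
    conv_lhs => rw [← cfc_id' ℝ g hgs]
    rw [← e1]
    refine cfc_mono (fun t _ => ?_) (by fun_prop) (by fun_prop)
    show t ≤ ε * (1 : ℝ) + (4 * ε)⁻¹ * (t * t)
    have : (4 * ε)⁻¹ * (t * t) + ε - t = (4 * ε)⁻¹ * (t - 2 * ε) ^ 2 := by field_simp; ring
    nlinarith [mul_nonneg (inv_nonneg.2 (by positivity : (0 : ℝ) ≤ 4 * ε)) (sq_nonneg (t - 2 * ε))]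
  have hone : (1 : B) ≤ (2 * ((4 * ε)⁻¹ * (4 / 3))) •
      ∑ q : Fin k × Fin 2, star (![y₀ * c q.1, c q.1] q.2) * p * (![y₀ * c q.1, c q.1] q.2) := by
    have hR : ∑ q : Fin k × Fin 2, star (![y₀ * c q.1, c q.1] q.2) * p *
        (![y₀ * c q.1, c q.1] q.2) = ∑ i, star (c i) * (star y₀ * p * y₀ + p) * c i := by
      rw [Fintype.sum_prod_type]
      refine Finset.sum_congr rfl fun i _ => ?_
      simp [Fin.sum_univ_two, mul_add, add_mul, mul_assoc]
    rw [hR]
    set R := ∑ i, star (c i) * (star y₀ * p * y₀ + p) * c i with hRdef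
    have h1 : (1 : B) ≤ ε • (∑ i, star (c i) * c i) + ((4 * ε)⁻¹ * (4 / 3)) • R := by
      calc (1 : B) = ∑ i, star (c i) * g * c i := hc.symm
        _ ≤ ∑ i, star (c i) * (ε • (1 : B) + ((4 * ε)⁻¹ * (4 / 3)) •
            (star y₀ * p * y₀ + p)) * c i := by
          refine Finset.sum_le_sum fun i _ => star_left_conjugate_le_conjugate (hgε.trans ?_) _
          rw [mul_smul]
          gcongr
        _ = _ := by
          simp only [mul_add, add_mul, Finset.sum_add_distrib, hRdef, Finset.smul_sum,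
            mul_smul_comm, smul_mul_assoc, mul_one, smul_add]
    have h2 : ε • (∑ i, star (c i) * c i) ≤ (1 / 2 : ℝ) • (1 : B) := by
      have h3 : ∑ i, star (c i) * c i ≤ algebraMap ℝ B M :=
        IsSelfAdjoint.le_algebraMap_norm_self
          (isSelfAdjoint_sum _ fun i _ => IsSelfAdjoint.star_mul_self (c i))
      rw [Algebra.algebraMap_eq_smul_one] at h3
      refine (smul_le_smul_of_nonneg_left h3 hε0.le).trans ?_
      rw [smul_smul]
      refine smul_le_smul_of_nonneg_right ?_ zero_le_one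
      rw [hε, inv_mul_le_iff₀ (by positivity)]
      have : 0 ≤ M := norm_nonneg _
      linarith
    have h3 := h1.trans (add_le_add_left h2 _)
    have h4 : (1 / 2 : ℝ) • (1 : B) ≤ ((4 * ε)⁻¹ * (4 / 3)) • R := by
      rw [show (1 / 2 : ℝ) • (1 : B) = 1 - (1 / 2 : ℝ) • (1 : B) by
        rw [eq_sub_iff_add_eq, ← add_smul]; norm_num]
      rw [sub_le_iff_le_add]
      first | exact h3 | (rw [add_comm]; exact h3)
    calc (1 : B) = (2 : ℝ) • ((1 / 2 : ℝ) • (1 : B)) := by rw [smul_smul]; norm_num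
      _ ≤ (2 : ℝ) • (((4 * ε)⁻¹ * (4 / 3)) • R) := smul_le_smul_of_nonneg_left h4 (by norm_num)
      _ = _ := by rw [smul_smul]
  have := fullBy_of_one_le hp0 _ hone
  rwa [Fintype.card_prod, Fintype.card_fin, Fintype.card_fin, mul_comm] at this


/-- The cut-off of a square-zero contraction `y₀`. -/
theorem cutOff {y₀ : B} (hy : y₀ * y₀ = 0) (hle : weight y₀ ≤ 1) :
    ∃ y p : B, y * y = 0 ∧ 0 ≤ p ∧ p ≤ 1 ∧
      (∀ a, Commute a y₀ → Commute a (star y₀) → Commute a y ∧ Commute a (star y) ∧ Commute a p) ∧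
      y * star y * p = p ∧
      0 ≤ 1 - star y * y - y * star y ∧
      (∀ e, 0 ≤ e → e ≤ 1 → e ≤ weight y₀ → Commute e (weight y₀) →
        cfc sfun e * (1 - star y * y - y * star y) = 0 ∧
        ∀ k, FullBy k (cfc gfun e) → FullBy (2 * k) p) := by
  set a := star y₀ * y₀ with ha
  set b := y₀ * star y₀ with hb
  set u := weight y₀ with hu
  have hua : u = a + b := rfl
  have ha0 : 0 ≤ a := star_mul_self_nonneg y₀
  have hb0 : 0 ≤ b := mul_star_self_nonneg y₀
  have hsa : IsSelfAdjoint a := ha0.isSelfAdjoint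
  have hsb : IsSelfAdjoint b := hb0.isSelfAdjoint
  have hsu : IsSelfAdjoint u := weight_isSelfAdjoint y₀
  have hy' : star y₀ * star y₀ = 0 := by rw [← star_mul, hy, star_zero]
  have hab : a * b = 0 := by
    rw [ha, hb, mul_assoc, ← mul_assoc y₀ y₀, hy, zero_mul, mul_zero]
  have hba : b * a = 0 := by
    rw [ha, hb, mul_assoc, ← mul_assoc (star y₀) (star y₀), hy', zero_mul, mul_zero]
  have hua' : u * a = a * a := by rw [hua, add_mul, hba, add_zero]
  have hub' : u * b = b * b := by rw [hua, add_mul, hab, zero_add]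
  have hby : b * y₀ = y₀ * a := by rw [ha, hb, mul_assoc]
  set hf : ℝ → ℝ := fun t => (Real.sqrt (max t (1 / 2)))⁻¹ with hfdef
  have hfc : Continuous hf := by
    refine (Real.continuous_sqrt.comp (continuous_id.max continuous_const)).inv₀ fun t => ?_
    exact (Real.sqrt_pos.2 (lt_max_of_lt_right (by norm_num : (0 : ℝ) < 1 / 2))).ne'
  set H : ℝ → ℝ := fun t => t * (hf t * hf t) with hH
  have hHval : ∀ t : ℝ, H t = t * (max t (1 / 2))⁻¹ := fun t => by
    simp only [hH, hfdef]
    rw [← mul_inv, Real.mul_self_sqrt (le_trans (by norm_num) (le_max_right t (1 / 2)))]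
  have hH2 : Continuous (fun t => hf t * hf t) := hfc.mul hfc
  have hHc : Continuous H := continuous_id.mul hH2
  set y := y₀ * cfc hf a with hydef
  have hss : star (cfc hf a) = cfc hf a := (cfc_predicate hf a : IsSelfAdjoint _).star_eq
  have hysy : star y * y = cfc H a := by
    rw [hydef, star_mul, hss,
      show cfc hf a * star y₀ * (y₀ * cfc hf a) = cfc hf a * a * cfc hf a by
        simp only [ha, mul_assoc]]
    rw [cfc_mul_self hsa hfc]
    exact cfc_mul' (hfc.mul continuous_id) hfc fun t _ => by simp only [hH]; ring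
  have hyys : y * star y = cfc H b := by
    rw [hydef, star_mul, hss,
      show y₀ * cfc hf a * (cfc hf a * star y₀) = (y₀ * (cfc hf a * cfc hf a)) * star y₀ by
        simp only [mul_assoc],
      cfc_mul' (h := fun t => hf t * hf t) hfc hfc fun _ _ => rfl,
      ← intertwine hsb hsa hby hH2, mul_assoc, ← hb, cfc_mul_self hsb hH2]
    exact cfc_congr fun t _ => by simp only [hH]; ring
  have hsum : cfc H u = star y * y + y * star y := by
    rw [hysy, hyys]
    have eH : ∀ x : B, IsSelfAdjoint x → cfc H x = cfc (fun t => hf t * hf t) x * x := by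
      intro x hx
      rw [cfc_mul_self hx hH2]
      exact cfc_congr fun t _ => by simp only [hH]; ring
    rw [eH u hsu, eH a hsa, eH b hsb]
    conv_lhs => enter [2]; rw [hua]
    rw [mul_add, intertwine hsu hsa hua' hH2, intertwine hsu hsb hub' hH2,
      ((Commute.refl a).cfc_real _).symm.eq, ((Commute.refl b).cfc_real _).symm.eq]
  have hD : 1 - star y * y - y * star y = cfc (fun t : ℝ => max t 0) (1 - (2 : ℝ) • u) := by
    have l1 : cfc (fun t : ℝ => 1 - H t) u = 1 - cfc H u := by
      rw [cfc_sub (fun _ : ℝ => (1 : ℝ)) H u continuous_const.continuousOn hHc.continuousOn,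
        cfc_const_one ℝ u hsu]
    have l2 : cfc (fun t : ℝ => 1 - (2 : ℝ) * t) u = 1 - (2 : ℝ) • u := by
      rw [cfc_sub (fun _ : ℝ => (1 : ℝ)) (fun t : ℝ => (2 : ℝ) * t) u continuous_const.continuousOn
        (by fun_prop), cfc_const_one ℝ u hsu, cfc_const_mul_id (2 : ℝ) u hsu]
    rw [sub_sub, ← hsum, ← l1, ← l2, ← cfc_comp' (fun t : ℝ => max t 0)
      (fun t : ℝ => 1 - (2 : ℝ) * t) u (by fun_prop) (by fun_prop)]
    refine cfc_congr fun t ht => ?_
    show 1 - H t = max (1 - (2 : ℝ) * t) 0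
    rw [hHval]
    have h1 : t ≤ 1 := le_of_le_of_eq ((CFC.le_one_iff (R := ℝ) u hsu).1 hle t ht) rfl
    rcases le_total t (1 / 2) with h | h
    · rw [max_eq_right h, max_eq_left (by linarith)]; norm_num; ring
    · rw [max_eq_left h, max_eq_right (by linarith), mul_inv_cancel₀ (by linarith), sub_self]
  have hyy0 : y * y = 0 := by
    have : a * y₀ = 0 := by rw [ha, mul_assoc, hy, mul_zero]
    rw [hydef, show y₀ * cfc hf a * (y₀ * cfc hf a) = y₀ * (cfc hf a * y₀) * cfc hf a by
      simp only [mul_assoc], cfc_mul_eq_smul_zero hsa this hfc, mul_smul_comm, hy, smul_zero,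
      zero_mul]
  refine ⟨y, cfc gfun b, hyy0, cfc_nonneg fun t _ => le_max_right _ _, ?_, ?_, ?_, ?_, ?_⟩
  · refine cfc_le_one gfun b fun t ht => ?_
    have hb1 : b ≤ 1 := le_trans (le_add_of_nonneg_left ha0) hle
    have := (CFC.le_one_iff (R := ℝ) b hsb).1 hb1 t ht
    exact max_le (by linarith) zero_le_one
  · intro x hx hx'
    have h1 : Commute a x := (hx'.mul_right hx).symm
    have h2 : Commute b x := (hx.mul_right hx').symm
    have h3 := (h1.cfc_real hf).symm
    refine ⟨hx.mul_right h3, ?_, (h2.cfc_real gfun).symm⟩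
    rw [hydef, star_mul, hss]
    exact h3.mul_right hx'
  · rw [hyys]
    refine cfc_mul' hHc continuous_gfun fun t _ => ?_
    show H t * gfun t = gfun t
    rcases le_total t (3 / 4) with h | h
    · rw [show gfun t = 0 from max_eq_right (by linarith), mul_zero]
    · rw [hHval, max_eq_left (by linarith), mul_inv_cancel₀ (by linarith), one_mul]
  · rw [hD]; exact cfc_nonneg fun t _ => le_max_right _ _
  intro e he0 he1 heu hce
  have hse : IsSelfAdjoint e := he0.isSelfAdjoint
  have he1' : ∀ t ∈ spectrum ℝ e, t ≤ 1 := (CFC.le_one_iff (R := ℝ) e hse).1 he1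
  refine ⟨?_, fun k hk => ?_⟩
  · rw [hD]
    set φ := cfc sfun e with hφ
    have hφs : IsSelfAdjoint φ := cfc_predicate _ _
    have hc : Commute (1 - (2 : ℝ) • u) φ :=
      (Commute.one_left _).sub_left ((hce.cfc_real sfun).symm.smul_left _)
    refine mul_cfc_posPart_eq_zero ((IsSelfAdjoint.one B).sub ((IsSelfAdjoint.all (2 : ℝ)).smul hsu)) hφs hc ?_
    have h2 : 1 - (2 : ℝ) • u ≤ 1 - (2 : ℝ) • e :=
      sub_le_sub_left (smul_le_smul_of_nonneg_left heu (by norm_num)) 1
    refine (hφs.conjugate_le_conjugate h2).trans ?_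
    have hlin : 1 - (2 : ℝ) • e = cfc (fun t : ℝ => 1 - (2 : ℝ) * t) e := by
      rw [cfc_sub (fun _ : ℝ => (1 : ℝ)) (fun t : ℝ => (2 : ℝ) * t) e continuous_const.continuousOn
        (by fun_prop), cfc_const_one ℝ e, cfc_const_mul_id (2 : ℝ) e]
    rw [hlin, hφ, cfc_mul' (h := fun t => sfun t * (1 - 2 * t)) continuous_sfun (by fun_prop)
      (fun _ _ => rfl), cfc_mul' (f := fun t => sfun t * (1 - 2 * t)) (h := fun t => sfun t * (1 - 2 * t) * sfun t)
      (continuous_sfun.mul (by fun_prop)) continuous_sfun (fun _ _ => rfl)]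
    refine cfc_nonpos _ _ fun t _ => ?_
    rcases le_total t (1 / 2) with h | h
    · rw [show sfun t = 0 by
        rw [sfun, max_eq_left]
        exact (min_le_right _ _).trans (by linarith)]
      simp
    · nlinarith [mul_self_nonneg (sfun t)]
  · exact cutOff_full hy hle he0 he1 heu hce hk

end Vale.Agent.P101
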