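import Vale.Agent.P101.Common
import Vale.Agent.P101.Core.Cut

/-!
# P101 Core: the square-zero element, its defect, and the matrices comparing them
-/

noncomputable section

namespace Vale.Agent.P101

universe u

variable {B : Type u} [CStarAlgebra B] [PartialOrder B] [StarOrderedRing B]

/-- If `a b = 0` for positive `a`, then `√a b = 0`. -/
theorem sqrt_mul_eq_zero {a b : B} (ha : 0 ≤ a) (h : a * b = 0) : CFC.sqrt a * b = 0 := by
  rw [CFC.sqrt_eq_real_sqrt a ha, cfcₙ_eq_cfc, cfc_mul_eq_smul_zero ha.isSelfAdjoint h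
    Real.continuous_sqrt, Real.sqrt_zero, zero_smul]

theorem commute_sqrt {a b : B} (h : Commute a b) (ha : 0 ≤ a) : Commute (CFC.sqrt a) b := by
  rw [CFC.sqrt_eq_real_sqrt a ha, cfcₙ_eq_cfc]
  exact h.cfc_real _

/-- The front end: everything built from the piece blocks and the orthogonal block. -/
theorem frontend {N m₁ k₁ mw kw : ℕ} {δ : ℝ}
    (hpiece : ∀ (B : Type u) [CStarAlgebra B] [PartialOrder B] [StarOrderedRing B]
      (X : Fin m₁ → Fin N → B), IsSlots δ X →
      ∃ z U : B, OddPair z U ∧ star z * z + z * star z ≤ 1 ∧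
        FullBy k₁ (cfc (fun t : ℝ => max (t - 3 / 4) 0) (star z * z + z * star z)))
    (hw : ∀ (B : Type u) [CStarAlgebra B] [PartialOrder B] [StarOrderedRing B]
      (X : Fin mw → Fin N → B), IsSlots δ X →
      ∃ w : Fin N → B, (∀ j, 0 ≤ w j) ∧ (∀ i j, i ≠ j → w i * w j = 0) ∧ ∀ j, FullBy kw (w j))
    (L : ℕ) (hL : 0 < L) (X : (Fin L × Fin m₁) ⊕ Fin mw → Fin N → B) (hX : IsSlots δ X) :
    ∃ (y : B) (q : Fin N → (Fin (2 * k₁ * kw) × Fin k₁) → Fin L → B),
      y * y = 0 ∧
      (∀ j l l', ∑ r, star (q j r l) * q j r l' =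
        if l = l' then 1 - star y * y - y * star y else 0) ∧
      (∀ i j, i ≠ j → ∀ r r' l l', star (q i r l) * q j r' l' = 0) ∧
      ∀ j r l, y * star y * q j r l = q j r l := by
  set T : Fin L → Set ((Fin L × Fin m₁) ⊕ Fin mw) := fun l => Set.range fun s => Sum.inl (l, s)
  set Tw : Set ((Fin L × Fin m₁) ⊕ Fin mw) := Set.range Sum.inr
  have hd : ∀ l l', l ≠ l' → Disjoint (T l) (T l') := fun l l' h => by
    rw [Set.disjoint_left]; rintro _ ⟨s, rfl⟩ ⟨t, ht⟩
    exact h (Prod.ext_iff.1 (Sum.inl.inj ht)).1.symm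
  have hdw : ∀ l, Disjoint (T l) Tw := fun l => by
    rw [Set.disjoint_left]; rintro _ ⟨s, rfl⟩ ⟨t, ht⟩; exact Sum.inr_ne_inl ht
  -- the pieces
  have hp : ∀ l, ∃ z U : B, ∃ c : Fin k₁ → B, OddPair z U ∧ weight z ≤ 1 ∧
      z ∈ gen X (T l) ∧ U ∈ gen X (T l) ∧ (∀ i, c i ∈ gen X (T l)) ∧
      ∑ i, star (c i) * cfc gfun (weight z) * c i = 1 := by
    intro l
    obtain ⟨z, U, hzU, hle, hf⟩ := hpiece (gen X (T l))
      (fun s j => ⟨X (Sum.inl (l, s)) j, slot_mem_gen (Set.mem_range_self _) j⟩)
      ((hX.comp (fun s => Sum.inl (l, s))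
        (Sum.inl_injective.comp (Prod.mk_right_injective l))).codRestrict (gen X (T l))
          fun s j => slot_mem_gen (Set.mem_range_self _) j)
    obtain ⟨c, hc, hsum⟩ := hf.exists_mem
    refine ⟨z.1, U.1, c, ⟨congrArg Subtype.val hzU.sq, ?_, congrArg Subtype.val hzU.left,
      congrArg Subtype.val hzU.right⟩, hle, z.2, U.2, hc, ?_⟩
    · exact ⟨congrArg Subtype.val (Unitary.star_mul_self_of_mem hzU.unit),
        congrArg Subtype.val (Unitary.mul_star_self_of_mem hzU.unit)⟩
    · convert hsum using 5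
      exact (StarAlgHomClass.map_cfc (gen X (T l)).subtype gfun
        (star z * z + z * star z) continuous_gfun.continuousOn (by fun_prop)
        ((IsSelfAdjoint.star_mul_self z).add (IsSelfAdjoint.mul_star_self z))
        ((weight_isSelfAdjoint z.1))).symm
  choose z U c hzU hle hzm hUm hcm hcsum using hp
  have hcfc : ∀ l (f : ℝ → ℝ), cfc f (weight (z l)) ∈ gen X (T l) := fun l f =>
    cfc_mem (𝕜' := ℂ) f (add_mem (mul_mem (star_mem (hzm l)) (hzm l))
      (mul_mem (hzm l) (star_mem (hzm l))))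
  -- the orthogonal elements
  obtain ⟨w', hw0, hworth, hwf⟩ := hw (gen X Tw)
    (fun s j => ⟨X (Sum.inr s) j, slot_mem_gen (Set.mem_range_self _) j⟩)
    ((hX.comp Sum.inr Sum.inr_injective).codRestrict (gen X Tw)
      fun s j => slot_mem_gen (Set.mem_range_self _) j)
  choose d hdm hdsum using fun j => (hwf j).exists_mem
  set w : Fin N → B := fun j => (w' j).1 with hwdef
  -- merge and cut
  obtain ⟨y₀, hy₀, hD₀, hge, hyc⟩ := merge z U (fun l => (hzU l).anti) hle fun l l' h =>
    ⟨(starCommute_gen hX (hd l l' h) (hzm l) (hzm l')).1,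
      (starCommute_gen hX (hd l l' h) (hzm l) (hzm l')).2,
      (starCommute_gen hX (hd l l' h) (hzm l) (hUm l')).1,
      (starCommute_gen hX (hd l l' h) (hUm l) (hUm l')).1⟩
  have hy₀1 : weight y₀ ≤ 1 := sub_nonneg.1 hD₀
  obtain ⟨y, p, hy, hp0, hp1, hpc, hpp, hDnn, hcut⟩ := cutOff hy₀ hy₀1
  set D := 1 - star y * y - y * star y with hDdef
  have hwy : ∀ a ∈ gen X Tw, Commute a y ∧ Commute a (star y) ∧ Commute a p := fun a ha => by
    obtain ⟨h1, h2⟩ := hyc a fun l =>
      ⟨(starCommute_gen hX (hdw l).symm ha (hzm l)).1, (starCommute_gen hX (hdw l).symm ha (hzm l)).2,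
        (starCommute_gen hX (hdw l).symm ha (hUm l)).1⟩
    exact hpc a h1 h2
  have hwe : ∀ l, Commute (weight (z l)) (weight y₀) := fun l => by
    obtain ⟨h1, h2⟩ := hyc (weight (z l)) fun l' => by
      rcases eq_or_ne l l' with rfl | h
      · exact (hzU l).anti.commute_weight
      · have hm : weight (z l) ∈ gen X (T l) := add_mem (mul_mem (star_mem (hzm l)) (hzm l))
          (mul_mem (hzm l) (star_mem (hzm l)))
        exact ⟨(starCommute_gen hX (hd l l' h) hm (hzm l')).1,
          (starCommute_gen hX (hd l l' h) hm (hzm l')).2,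
          (starCommute_gen hX (hd l l' h) hm (hUm l')).1⟩
    exact ((h2.mul_right h1).add_right (h1.mul_right h2))
  have hs : ∀ l, cfc sfun (weight (z l)) * D = 0 := fun l =>
    (hcut _ (weight_nonneg _) (hle l) (hge l) (hwe l)).1
  obtain ⟨cp, hcp⟩ : FullBy (2 * k₁) p :=
    (hcut _ (weight_nonneg _) (hle ⟨0, hL⟩) (hge _) (hwe _)).2 k₁
      ⟨c ⟨0, hL⟩, hcsum _⟩
  -- square roots
  set sD := CFC.sqrt D with hsD
  have hsDD : sD * sD = D := CFC.sqrt_mul_sqrt_self D hDnn
  have hsDs : star sD = sD := (CFC.sqrt_nonneg D).isSelfAdjoint.star_eq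
  have hssD : ∀ l, cfc sfun (weight (z l)) * sD = 0 := fun l => by
    rw [← CStarRing.mul_star_self_eq_zero_iff, star_mul, hsDs, ← mul_assoc,
      mul_assoc (cfc sfun (weight (z l))), hsDD, hs, zero_mul]
  set gs : Fin L → B := fun l => cfc (fun t => Real.sqrt (gfun t)) (weight (z l)) with hgs
  have hgss : ∀ l, star (gs l) = gs l := fun l =>
    (cfc_predicate (fun t => Real.sqrt (gfun t)) (weight (z l)) : IsSelfAdjoint _).star_eq
  have hgg : ∀ l, gs l * gs l = cfc gfun (weight (z l)) := fun l =>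
    cfc_mul' continuous_gfun.sqrt continuous_gfun.sqrt fun t _ =>
      Real.mul_self_sqrt (le_max_right _ _)
  have hgs1 : ∀ l, gs l * cfc sfun (weight (z l)) = gs l := fun l => by
    refine cfc_mul' continuous_gfun.sqrt continuous_sfun fun t _ => ?_
    rcases le_total t (3 / 4) with h | h
    · rw [show gfun t = 0 from max_eq_right (by linarith)]; simp
    · rw [show sfun t = 1 by
        rw [sfun, min_eq_left (by linarith), max_eq_right zero_le_one], mul_one]
  set Qm : Fin k₁ → Fin L → B := fun i l => gs l * c l i * sD with hQm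
  have hQQ : ∀ l l', ∑ i, star (Qm i l) * Qm i l' = if l = l' then D else 0 := by
    intro l l'
    rcases eq_or_ne l l' with rfl | h
    · rw [if_pos rfl]
      calc ∑ i, star (Qm i l) * Qm i l
          = ∑ i, sD * (star (c l i) * cfc gfun (weight (z l)) * c l i) * sD :=
            Finset.sum_congr rfl fun i _ => by
              simp only [hQm, star_mul, hsDs, hgss, ← hgg]; simp only [mul_assoc]
        _ = D := by rw [← Finset.sum_mul, ← Finset.mul_sum, hcsum, mul_one, hsDD]
    · rw [if_neg h]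
      refine Finset.sum_eq_zero fun i _ => ?_
      have hG : gs l * (gs l' * c l' i * sD) = 0 := by
        have hmem : gs l' * c l' i ∈ gen X (T l') := mul_mem (hcfc l' _) (hcm l' i)
        have hcm' : Commute (cfc sfun (weight (z l))) (gs l' * c l' i) :=
          (starCommute_gen hX (hd l l' h) (hcfc l _) hmem).1
        calc gs l * (gs l' * c l' i * sD)
            = gs l * cfc sfun (weight (z l)) * (gs l' * c l' i) * sD := by
              rw [hgs1]; simp only [mul_assoc]
          _ = gs l * ((gs l' * c l' i) * (cfc sfun (weight (z l)) * sD)) := by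
              rw [mul_assoc (gs l), hcm'.eq]; simp only [mul_assoc]
          _ = 0 := by rw [hssD, mul_zero, mul_zero]
      simp only [hQm, star_mul, hgss, mul_assoc] at hG ⊢
      rw [hG, mul_zero, mul_zero]
  -- the factors of `p w_j`
  set r : Fin N → B := fun j => CFC.sqrt p * CFC.sqrt (w j) with hr
  have hsp : CFC.sqrt p * CFC.sqrt p = p := CFC.sqrt_mul_sqrt_self p hp0
  have hsps : star (CFC.sqrt p) = CFC.sqrt p := (CFC.sqrt_nonneg p).isSelfAdjoint.star_eq
  have hwnn : ∀ j, 0 ≤ w j := fun j => hw0 j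
  have hsws : ∀ j, star (CFC.sqrt (w j)) = CFC.sqrt (w j) := fun j =>
    (CFC.sqrt_nonneg _).isSelfAdjoint.star_eq
  have hcsw : ∀ j, Commute p (CFC.sqrt (w j)) := fun j =>
    (commute_sqrt (hwy _ (w' j).2).2.2 (hwnn j)).symm
  have hrr : ∀ i j, star (r i) * r j = p * (CFC.sqrt (w i) * CFC.sqrt (w j)) := fun i j => by
    rw [hr, star_mul, hsps, hsws,
      show CFC.sqrt (w i) * CFC.sqrt p * (CFC.sqrt p * CFC.sqrt (w j)) =
        CFC.sqrt (w i) * (CFC.sqrt p * CFC.sqrt p) * CFC.sqrt (w j) by simp only [mul_assoc],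
      hsp, ← (hcsw i).eq, mul_assoc]
  have horth : ∀ i j, i ≠ j → star (r i) * r j = 0 := fun i j h => by
    have h0 : CFC.sqrt (w i) * w j = 0 :=
      sqrt_mul_eq_zero (hwnn i) (congrArg Subtype.val (hworth i j h))
    have h1 : w j * CFC.sqrt (w i) = 0 := by
      have := congrArg star h0
      rwa [star_mul, star_zero, hsws, (hwnn j).isSelfAdjoint.star_eq] at this
    have h2 : CFC.sqrt (w i) * CFC.sqrt (w j) = 0 := by
      have := congrArg star (sqrt_mul_eq_zero (hwnn j) h1)
      rwa [star_mul, star_zero, hsws, hsws] at this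
    rw [hrr, h2, mul_zero]
  have hHr : ∀ j, y * star y * r j = r j := fun j => by
    have h : (y * star y - 1) * CFC.sqrt p = 0 := by
      rw [← CStarRing.mul_star_self_eq_zero_iff, star_mul, hsps,
        show (y * star y - 1) * CFC.sqrt p * (CFC.sqrt p * star (y * star y - 1)) =
          (y * star y - 1) * (CFC.sqrt p * CFC.sqrt p) * star (y * star y - 1) by
          simp only [mul_assoc],
        hsp, sub_mul, hpp, one_mul, sub_self, zero_mul]
    rw [sub_mul, one_mul, sub_eq_zero] at h
    rw [hr, ← mul_assoc, h]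
  -- witnesses for `p w_j`
  have hwit : ∀ j, ∃ d' : Fin (2 * k₁ * kw) → B, ∑ a, star (d' a) * (star (r j) * r j) * d' a = 1 := by
    intro j
    refine ⟨fun a => d j (finProdFinEquiv.symm a).2 * cp (finProdFinEquiv.symm a).1, ?_⟩
    rw [← finProdFinEquiv.sum_comp]
    simp only [Equiv.symm_apply_apply]
    rw [hrr, CFC.sqrt_mul_sqrt_self _ (hwnn j), Fintype.sum_prod_type]
    refine Eq.trans (Finset.sum_congr rfl fun i _ => ?_) hcp
    have hdp : ∀ a, Commute p (star (d j a)) := fun a =>
      ((hwy _ (star_mem (hdm j a))).2.2).symm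
    calc ∑ a, star (d j a * cp i) * (p * w j) * (d j a * cp i)
        = ∑ a, star (cp i) * p * (star (d j a) * w j * d j a) * cp i :=
          Finset.sum_congr rfl fun a _ => by
            rw [star_mul, show star (cp i) * star (d j a) * (p * w j) * (d j a * cp i) =
              star (cp i) * (star (d j a) * p) * (w j * d j a * cp i) by simp only [mul_assoc],
              ← (hdp a).eq]
            simp only [mul_assoc]
      _ = star (cp i) * p * cp i := by
          rw [← Finset.sum_mul, ← Finset.mul_sum, hdsum, mul_one]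
  choose d' hd' using hwit
  refine ⟨y, fun j x l => r j * d' j x.1 * Qm x.2 l, hy, fun j l l' => ?_,
    fun i j h x x' l l' => ?_, fun j x l => ?_⟩
  · rw [← hQQ l l', Fintype.sum_prod_type, Finset.sum_comm]
    refine Finset.sum_congr rfl fun i _ => ?_
    calc ∑ a, star (r j * d' j a * Qm i l) * (r j * d' j a * Qm i l')
        = ∑ a, star (Qm i l) * (star (d' j a) * (star (r j) * r j) * d' j a) * Qm i l' :=
          Finset.sum_congr rfl fun a _ => by simp only [star_mul, mul_assoc]
      _ = _ := by rw [← Finset.sum_mul, ← Finset.mul_sum, hd', mul_one]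
  · simp only [star_mul]
    calc star (Qm x.2 l) * (star (d' i x.1) * star (r i)) * (r j * d' j x'.1 * Qm x'.2 l')
        = star (Qm x.2 l) * star (d' i x.1) * (star (r i) * r j) * (d' j x'.1 * Qm x'.2 l') := by
          simp only [mul_assoc]
      _ = 0 := by rw [horth i j h, mul_zero, zero_mul]
  · show y * star y * (r j * d' j x.1 * Qm x.2 l) = r j * d' j x.1 * Qm x.2 l
    rw [← mul_assoc (y * star y), ← mul_assoc (y * star y), hHr]

end Vale.Agent.P101
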