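import Vale.Agent.P101.Core.Frontend

/-!
# P101 Core: the theorem
-/

noncomputable section

namespace Vale.Agent.P101

universe u

/-- Unital images of the dimension-drop generators from sufficiently many slots. -/
theorem core_of (hO : OrthNStatement.{u}) (hP : PieceStatement.{u}) (hC : ColourStatement.{u}) :
    CoreStatement.{u} := by
  intro N δ hδ
  obtain ⟨m₁, k₁, hpiece⟩ := hP N δ hδ
  obtain ⟨mw, kw, hw⟩ := hO N N δ hδ
  obtain ⟨n, hn⟩ : ∃ n, 2 * k₁ * kw * k₁ ≤ 2 ^ n := ⟨_, Nat.lt_two_pow_self.le⟩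
  obtain ⟨mE, hcol⟩ := hC N n δ hδ
  set ι := ((Fin (2 ^ n) × Fin m₁) ⊕ Fin mw) ⊕ Fin mE with hι
  refine ⟨Fintype.card ι, fun B _ _ _ X hX => ?_⟩
  set Y : ι → Fin N → B := X ∘ Fintype.equivFin ι with hYdef
  have hY : IsSlots δ Y := hX.comp _ (Fintype.equivFin ι).injective
  set TF : Set ι := Set.range Sum.inl
  set TE : Set ι := Set.range Sum.inr
  have hd : Disjoint TF TE := by
    rw [Set.disjoint_left]; rintro _ ⟨s, rfl⟩ ⟨t, ht⟩; exact Sum.inr_ne_inl ht
  obtain ⟨y', q', hy, hq, horth, hyq⟩ := frontend (B := gen Y TF) hpiece hw (2 ^ n)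
    (Nat.two_pow_pos n) (fun s j => ⟨Y (Sum.inl s) j, slot_mem_gen (Set.mem_range_self _) j⟩)
    ((hY.comp Sum.inl Sum.inl_injective).codRestrict (gen Y TF)
      fun s j => slot_mem_gen (Set.mem_range_self _) j)
  obtain ⟨E', Q', hEs, hEE, hE0, hEdiag, hu⟩ := hcol (gen Y TE)
    (fun s j => ⟨Y (Sum.inr s) j, slot_mem_gen (Set.mem_range_self _) j⟩)
    ((hY.comp Sum.inr Sum.inr_injective).codRestrict (gen Y TE)
      fun s j => slot_mem_gen (Set.mem_range_self _) j)
  set y : B := y'.1 with hydef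
  set D : B := 1 - star y * y - y * star y with hD
  have hDm : D ∈ gen Y TF := (1 - star y' * y' - y' * star y').2
  set ρ := Fintype.card (Fin (2 * k₁ * kw) × Fin k₁) with hρ
  have hρle : ρ ≤ 2 ^ n := by simpa [hρ] using hn
  set emb : (Fin (2 * k₁ * kw) × Fin k₁) → Fin (2 ^ n) :=
    Fin.castLE hρle ∘ Fintype.equivFin _ with hemb
  have hinj : Function.Injective emb :=
    (Fin.castLE_injective hρle).comp (Fintype.equivFin _).injective
  have hcom : ∀ (a : gen Y TF) (b : gen Y TE), StarCommute a.1 b.1 := fun a b =>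
    starCommute_gen hY hd a.2 b.2
  have hQs : ∀ j, star (Q' j).1 = (Q' j).1 := fun j => by
    rw [← hEdiag j]
    simp [star_sum, ← StarMemClass.coe_star, hEs]
  have hu' : IsUnit (∑ j, (Q' j).1 * (Q' j).1) := by
    simpa using hu.map (gen Y TE).subtype
  obtain ⟨v, hv, hyv⟩ := glue D (y * star y) (fun j r l => (q' j r l).1)
    (fun j r l => (E' j (emb r) l).1) (fun j l l' => (Q' j).1 * (E' j l l').1) (fun j => (Q' j).1)
    (fun j l l' => by
      have := congrArg Subtype.val (hq j l l')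
      split_ifs at this ⊢ with h <;> simpa [hD, hydef] using this)
    (fun i j h r r' l l' => by simpa using congrArg Subtype.val (horth i j h r r' l l'))
    (fun j r l r' l' => by
      rw [← StarMemClass.coe_star, hEs]
      split_ifs with h
      · subst h; exact congrArg Subtype.val (hEE j l (emb r) l')
      · exact congrArg Subtype.val (hE0 j l (emb r) (emb r') l' fun e => h (hinj e)))
    (fun j => by
      rw [← Finset.mul_sum]
      congr 1
      simpa using congrArg Subtype.val (hEdiag j))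
    (fun i j r r' l l' => hcom _ _)
    (fun j => ((hcom ⟨D, hDm⟩ (Q' j)).1).symm)
    hQs hu' (fun j r l => congrArg Subtype.val (hyq j r l))
  exact ⟨y, v, congrArg Subtype.val hy, hv, hyv⟩

end Vale.Agent.P101
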