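import Vale.Agent.P101.Defs

/-!
# P101 Core: elementary functional-calculus lemmas
-/

noncomputable section

namespace Vale.Agent.P101

universe u

open Polynomial

variable {B : Type u} [CStarAlgebra B]

/-- If `a x = x b` for selfadjoint `a b`, then `f a x = x f b` for continuous `f`. -/
theorem intertwine {a b x : B} (ha : IsSelfAdjoint a) (hb : IsSelfAdjoint b) (h : a * x = x * b)
    {f : ℝ → ℝ} (hf : Continuous f) : cfc f a * x = x * cfc f b := by
  have hpol : ∀ p : ℝ[X], aeval a p * x = x * aeval b p := by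
    intro p
    induction p using Polynomial.induction_on' with
    | add p q hp hq => rw [map_add, map_add, add_mul, mul_add, hp, hq]
    | monomial n c =>
      have hn : a ^ n * x = x * b ^ n := by
        induction n with
        | zero => simp
        | succ n ih => rw [pow_succ, pow_succ, mul_assoc, h, ← mul_assoc, ih, mul_assoc]
      simp only [aeval_monomial, Algebra.algebraMap_eq_smul_one, smul_mul_assoc, one_mul,
        mul_smul_comm, hn]
  obtain ⟨R, hR⟩ := ((ContinuousFunctionalCalculus.isCompact_spectrum (R := ℝ) a).union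
    (ContinuousFunctionalCalculus.isCompact_spectrum (R := ℝ) b)).isBounded.subset_closedBall 0
  rw [← sub_eq_zero, ← norm_le_zero_iff]
  refine le_of_forall_pos_le_add fun ε hε => ?_
  set δ := ε / (2 * ‖x‖ + 1) with hδ
  have hδ0 : 0 < δ := by positivity
  obtain ⟨p, hp⟩ := exists_polynomial_near_of_continuousOn (-R) R f hf.continuousOn δ hδ0
  have hclose : ∀ c : B, IsSelfAdjoint c → spectrum ℝ c ⊆ Metric.closedBall 0 R →
      ‖cfc f c - aeval c p‖ ≤ δ := by
    intro c hc hsub
    rw [← cfc_polynomial p c hc, ← cfc_sub f p.eval c hf.continuousOn p.continuous.continuousOn]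
    refine norm_cfc_le hδ0.le fun t ht => ?_
    have := hsub ht
    rw [Real.closedBall_eq_Icc, zero_sub, zero_add] at this
    have h2 := hp t this
    rw [abs_sub_comm] at h2
    exact h2.le
  have h1 := hclose a ha (Set.subset_union_left.trans hR)
  have h2 := hclose b hb (Set.subset_union_right.trans hR)
  have heq : cfc f a * x - x * cfc f b =
      (cfc f a - aeval a p) * x - x * (cfc f b - aeval b p) := by
    rw [sub_mul, mul_sub, hpol p]; abel
  rw [heq]
  refine (norm_sub_le _ _).trans ?_
  calc ‖(cfc f a - aeval a p) * x‖ + ‖x * (cfc f b - aeval b p)‖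
      ≤ δ * ‖x‖ + ‖x‖ * δ := by
        refine add_le_add ((norm_mul_le _ _).trans ?_) ((norm_mul_le _ _).trans ?_)
        · exact mul_le_mul_of_nonneg_right h1 (norm_nonneg _)
        · exact mul_le_mul_of_nonneg_left h2 (norm_nonneg _)
    _ ≤ δ * (2 * ‖x‖ + 1) := by nlinarith
    _ = ε := by rw [hδ]; field_simp
    _ ≤ 0 + ε := by simp

/-- A selfadjoint element killing `x` on the right is turned by `f` into `f 0`. -/
theorem cfc_mul_eq_smul_zero {a x : B} (ha : IsSelfAdjoint a) (h : a * x = 0)
    {f : ℝ → ℝ} (hf : Continuous f) : cfc f a * x = f 0 • x := by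
  have := intertwine ha (IsSelfAdjoint.zero B) (by rw [h, mul_zero]) hf
  rwa [cfc_apply_zero, Algebra.algebraMap_eq_smul_one, mul_smul_comm, mul_one] at this

variable [PartialOrder B] [StarOrderedRing B]

/-- If commuting selfadjoint `d φ` satisfy `φ d φ ≤ 0` then `φ` kills the positive part of `d`. -/
theorem mul_cfc_posPart_eq_zero {d φ : B} (hd : IsSelfAdjoint d) (hφ : IsSelfAdjoint φ)
    (hc : Commute d φ) (h : φ * d * φ ≤ 0) :
    φ * cfc (fun t : ℝ => max t 0) d = 0 := by
  set P := cfc (fun t : ℝ => max t 0) d with hP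
  have hP0 : 0 ≤ P := cfc_nonneg fun t _ => le_max_right t 0
  have hPφ : Commute P φ := hc.cfc_real _
  have hPd : P * d = P * P := by
    conv_lhs => enter [2]; rw [← cfc_id' ℝ d hd]
    rw [hP, ← cfc_mul _ _ d, ← cfc_mul _ _ d]
    refine cfc_congr fun t _ => ?_
    rcases le_total t 0 with h' | h'
    · rw [max_eq_right h']; simp
    · rw [max_eq_left h']
  have h1 : P * (φ * d * φ) * P ≤ 0 := by
    simpa using hP0.isSelfAdjoint.conjugate_le_conjugate h
  have heq : P * (φ * d * φ) * P = φ * P * P * (P * φ) := by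
    calc P * (φ * d * φ) * P = (P * φ) * d * (φ * P) := by simp only [mul_assoc]
      _ = (φ * P) * d * (φ * P) := by rw [hPφ.eq]
      _ = φ * (P * d) * (φ * P) := by simp only [mul_assoc]
      _ = φ * (P * P) * (P * φ) := by rw [hPd, hPφ.eq]
      _ = φ * P * P * (P * φ) := by simp only [mul_assoc]
  have hs : IsSelfAdjoint (CFC.sqrt P) := (CFC.sqrt_nonneg P).isSelfAdjoint
  have hss : CFC.sqrt P * CFC.sqrt P = P := CFC.sqrt_mul_sqrt_self P hP0
  have h2 : φ * P * P * (P * φ) = φ * P * CFC.sqrt P * star (φ * P * CFC.sqrt P) := by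
    rw [star_mul, star_mul, hs.star_eq, hP0.isSelfAdjoint.star_eq, hφ.star_eq]
    conv_lhs => enter [1, 2]; rw [← hss]
    simp only [mul_assoc]
  have h3 : φ * P * CFC.sqrt P = 0 := by
    rw [← CStarRing.mul_star_self_eq_zero_iff]
    refine le_antisymm ?_ (mul_star_self_nonneg _)
    rw [← h2, ← heq]; exact h1
  have h4 : φ * P * P = 0 := by
    conv_lhs => enter [2]; rw [← hss]
    rw [← mul_assoc, h3, zero_mul]
  rw [← CStarRing.mul_star_self_eq_zero_iff, star_mul, hP0.isSelfAdjoint.star_eq, ← mul_assoc,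
    h4, zero_mul]

end Vale.Agent.P101
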