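import Vale.Agent.P101.Defs

/-!
# P101 Core: gluing the colours

From `L × L` matrices `q j` with `q j* q j = D · 1`, orthogonal ranges, and `N` colours of weighted
matrix units commuting with everything, we get `v` with `v* v = D`.
-/

noncomputable section

namespace Vale.Agent.P101

universe u

variable {B : Type u} [CStarAlgebra B] [PartialOrder B] [StarOrderedRing B]

/-- An invertible positive element has an inverse square root commuting with its commutant. -/
theorem exists_invSqrt (S : B) (h0 : 0 ≤ S) (hu : IsUnit S) :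
    ∃ s : B, star s = s ∧ s * S * s = 1 ∧
      ∀ d, Commute S d → Commute s d := by
  have hsa : IsSelfAdjoint S := h0.isSelfAdjoint
  have hpos : ∀ t ∈ spectrum ℝ S, 0 < t := by
    intro t ht
    rcases lt_or_eq_of_le (spectrum_nonneg_of_nonneg h0 ht) with h | h
    · exact h
    · exact absurd (h ▸ ht) (spectrum.zero_notMem ℝ hu)
  have hc : ContinuousOn (fun t : ℝ => (Real.sqrt t)⁻¹) (spectrum ℝ S) :=
    Real.continuous_sqrt.continuousOn.inv₀ fun t ht => (Real.sqrt_pos.2 (hpos t ht)).ne'
  refine ⟨cfc (fun t : ℝ => (Real.sqrt t)⁻¹) S, (cfc_predicate _ S : IsSelfAdjoint _).star_eq,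
    ?_, fun d hd => ?_⟩
  · conv_lhs => enter [1, 2]; rw [← cfc_id' ℝ S hsa]
    rw [← cfc_mul _ _ S hc (continuousOn_id' _), ← cfc_mul (fun t => (Real.sqrt t)⁻¹ * t) _ S
      (hc.mul (continuousOn_id' _)) hc, ← cfc_one ℝ S hsa]
    refine cfc_congr fun t ht => ?_
    have hs := Real.sqrt_pos.2 (hpos t ht)
    have := Real.mul_self_sqrt (hpos t ht).le
    show (Real.sqrt t)⁻¹ * t * (Real.sqrt t)⁻¹ = 1
    field_simp
    linarith
  · exact (hd.cfc_real _)

theorem colour_mul {L : ℕ} {ι : Type*} [Fintype ι] [DecidableEq ι] (D : B) (q : ι → Fin L → B)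
    (E : ι → Fin L → B) (F : Fin L → Fin L → B)
    (hq : ∀ l l', ∑ r, star (q r l) * q r l' = if l = l' then D else 0)
    (hE : ∀ r l r' l', star (E r l) * E r' l' = if r = r' then F l l' else 0)
    (hc : ∀ r r' l l', Commute (q r l) (E r' l') ∧ Commute (q r l) (star (E r' l'))) :
    star (∑ p : ι × Fin L, q p.1 p.2 * E p.1 p.2) * (∑ p : ι × Fin L, q p.1 p.2 * E p.1 p.2) =
      D * ∑ l, F l l := by
  have key : ∀ r l r' l', star (q r l * E r l) * (q r' l' * E r' l') =
      (star (q r l) * q r' l') * (star (E r l) * E r' l') := by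
    intro r l r' l'
    have h1 : Commute (star (E r l)) (star (q r l)) := (hc r r l l).1.star_star.symm
    have h2 : Commute (star (E r l)) (q r' l') := (hc r' r l' l).2.symm
    rw [star_mul, ← mul_assoc, mul_assoc (star (E r l)) (star (q r l)), (h1.mul_right h2).eq]
    simp only [mul_assoc]
  rw [star_sum, Finset.sum_mul_sum]
  simp only [key, hE, mul_ite, mul_zero, Fintype.sum_prod_type]
  calc ∑ r, ∑ l, ∑ r', ∑ l', (if r = r' then star (q r l) * q r' l' * F l l' else 0)
      = ∑ r, ∑ l, ∑ l', star (q r l) * q r l' * F l l' := by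
        refine Finset.sum_congr rfl fun r _ => Finset.sum_congr rfl fun l _ => ?_
        rw [Finset.sum_comm]
        simp
    _ = ∑ l, ∑ l', (∑ r, star (q r l) * q r l') * F l l' := by
        rw [Finset.sum_comm]
        refine Finset.sum_congr rfl fun l _ => ?_
        rw [Finset.sum_comm]
        simp only [Finset.sum_mul]
    _ = D * ∑ l, F l l := by
        simp only [hq, ite_mul, zero_mul, Finset.sum_ite_eq, Finset.mem_univ, if_true,
          Finset.mul_sum]

/-- Gluing: `v* v = D` and `P v = v`. -/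
theorem glue {N L : ℕ} {ι : Type*} [Fintype ι] [DecidableEq ι] (D P : B)
    (q E : Fin N → ι → Fin L → B) (F : Fin N → Fin L → Fin L → B) (Q : Fin N → B)
    (hq : ∀ j l l', ∑ r, star (q j r l) * q j r l' = if l = l' then D else 0)
    (horth : ∀ i j, i ≠ j → ∀ r r' l l', star (q i r l) * q j r' l' = 0)
    (hE : ∀ j r l r' l', star (E j r l) * E j r' l' = if r = r' then F j l l' else 0)
    (hF : ∀ j, ∑ l, F j l l = Q j * Q j)
    (hc : ∀ i j r r' l l', Commute (q i r l) (E j r' l') ∧ Commute (q i r l) (star (E j r' l')))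
    (hQD : ∀ j, Commute (Q j) D) (hQ : ∀ j, star (Q j) = Q j)
    (hsum : IsUnit (∑ j, Q j * Q j)) (hP : ∀ j r l, P * q j r l = q j r l) :
    ∃ v : B, star v * v = D ∧ P * v = v := by
  set S := ∑ j, Q j * Q j with hS
  have hS0 : 0 ≤ S := Finset.sum_nonneg fun j _ => by
    calc (0 : B) ≤ star (Q j) * Q j := star_mul_self_nonneg _
      _ = Q j * Q j := by rw [hQ]
  obtain ⟨s, hs, hsS, hsc⟩ := exists_invSqrt S hS0 hsum
  have hsD : Commute s D := hsc D (Commute.sum_left _ _ _ fun j _ => (hQD j).mul_left (hQD j))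
  set V : Fin N → B := fun j => ∑ p : ι × Fin L, q j p.1 p.2 * E j p.1 p.2 with hV
  have hVV : ∀ i j, star (V i) * V j = if i = j then D * (Q i * Q i) else 0 := by
    intro i j
    rcases eq_or_ne i j with rfl | hij
    · rw [if_pos rfl, ← hF]
      exact colour_mul D _ _ _ (hq i) (hE i) (fun r r' l l' => hc i i r r' l l')
    · rw [if_neg hij]
      simp only [hV, star_sum, Finset.sum_mul_sum, star_mul]
      refine Finset.sum_eq_zero fun x _ => Finset.sum_eq_zero fun y _ => ?_
      rw [mul_assoc, ← mul_assoc (star (q i x.1 x.2)), horth i j hij, zero_mul, mul_zero]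
  have hsq : star (∑ j, V j) * ∑ j, V j = D * S := by
    rw [star_sum, Finset.sum_mul_sum]
    simp only [hVV, Finset.sum_ite_eq, Finset.mem_univ, if_true, hS, Finset.mul_sum]
  refine ⟨(∑ j, V j) * s, ?_, ?_⟩
  · calc star ((∑ j, V j) * s) * ((∑ j, V j) * s)
        = s * (star (∑ j, V j) * ∑ j, V j) * s := by rw [star_mul, hs]; simp only [mul_assoc]
      _ = D * (s * S * s) := by
          rw [hsq, ← mul_assoc s D S, hsD.eq]; simp only [mul_assoc]
      _ = D := by rw [hsS, mul_one]
  · rw [← mul_assoc, Finset.mul_sum]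
    congr 1
    refine Finset.sum_congr rfl fun j _ => ?_
    simp only [hV, Finset.mul_sum, ← mul_assoc, hP]

end Vale.Agent.P101
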